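import Vale.Agent.P028A.Main
import Vale.Agent.P028L.Main
import Vale.Agent.P028G.LowMain

/-! P028: Q1 for every real shift when `ψ q ≤ (log q) ^ (-θ)` carries the divergence, whatever the levels; Q1 for
every shift on sets with separated or monotone levels; the anchored extra-divergence criteria; and, for every
shift and every `ψ`, an extra divergence of any positive power of `log log log q`. -/

namespace Vale.Agent.Results.P028.MixedLevels

open MeasureTheory

/-- Q1 with no extra divergence for every shift below any negative power of `log q`, or on any set with separated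
or monotone levels; and up to the distance from an arbitrary anchor or any positive power of `log log log q`. -/
theorem result (γ : ℝ) (ψ : ℕ → ℝ) (hψ : ∀ q, 0 ≤ ψ q)
    (hdiv : (∃ θ : ℝ, 0 < θ ∧ ¬ Summable ({q : ℕ | ψ q ≤ Real.log q ^ (-θ)}.indicator
          (fun q : ℕ => (q.totient : ℝ) / q * ψ q))) ∨
      (∃ (S : Set ℕ) (K : ℝ), 1 ≤ K ∧
        ¬ Summable (S.indicator (fun q : ℕ => (q.totient : ℝ) / q * ψ q)) ∧
        ∀ q ∈ S, ∀ r ∈ S, 0 < ψ q → 0 < ψ r →
          |Real.log (ψ q) - Real.log (ψ r)|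
              ≤ K * (1 + |(Real.log q - Real.log (ψ q)) - (Real.log r - Real.log (ψ r))|) ∨
            (-Real.log (ψ q) ≤ K * -Real.log (ψ r) ∧ -Real.log (ψ r) ≤ K * -Real.log (ψ q)) ∨
            Real.exp (-K) * (ψ q * ψ r) ^ (-(1 / K))
              ≤ ((r : ℝ) * ψ q + (q : ℝ) * ψ r) / Nat.gcd q r) ∨
      (∃ S : Set ℕ, ¬ Summable (S.indicator (fun q : ℕ => (q.totient : ℝ) / q * ψ q)) ∧
        ∀ q ∈ S, ∀ r ∈ S, q ≤ r → 0 < ψ q → 0 < ψ r → ψ r ≤ ψ q) ∨
      (∃ (δ : ℝ) (G : ℕ → ℝ), 0 < δ ∧ ¬ Summable (fun q : ℕ => (q.totient : ℝ) / q * ψ q /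
          (1 + |Real.log (max 1 (-Real.log (ψ q))) -
            Real.log (max 1 (G ⌊Real.log (Real.log q) / Real.log 8⌋₊))|) ^ (1 + δ))) ∨
      (∃ (μ c δ : ℝ) (G : ℕ → ℝ), 0 < c ∧ 0 < δ ∧ (∀ B : ℕ, 0 < B →
          c * (B : ℝ) ^ (-μ) ≤ |(B : ℝ) * γ - (round ((B : ℝ) * γ) : ℝ)|) ∧
        ¬ Summable (fun q : ℕ => (q.totient : ℝ) / q * ψ q /
          (1 + |Real.log (max 1 (-Real.log (ψ q))) -
            Real.log (max 1 (G ⌊Real.log (Real.log q) / Real.log 8⌋₊))|) ^ δ)) ∨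
      (∃ δ : ℝ, 0 < δ ∧ ¬ Summable (fun q : ℕ => (q.totient : ℝ) / q * ψ q /
          max 1 (Real.log (Real.log (Real.log q))) ^ δ))) :
    ∀ᵐ x : ℝ ∂volume, {q : ℕ | 0 < q ∧
      |(q : ℝ) * x - γ - (round ((q : ℝ) * x - γ) : ℝ)| < ψ q}.Infinite := by
  have hdio : ∀ μ c : ℝ, 0 < c → (∀ B : ℕ, 0 < B →
      c * (B : ℝ) ^ (-μ) ≤ |(B : ℝ) * γ - (round ((B : ℝ) * γ) : ℝ)|) →
      Vale.Agent.P028X.Dioph γ (max μ 1) c := fun μ c hc hd =>
    ⟨le_max_right _ _, hc, fun B hB => le_trans (mul_le_mul_of_nonneg_left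
      (Real.rpow_le_rpow_of_exponent_le (by exact_mod_cast hB) (neg_le_neg (le_max_left _ _))) hc.le)
      (hd B hB)⟩
  rcases hdiv with ⟨θ, hθ, hdiv⟩ | ⟨S, K, hK, hdiv, hsep⟩ | ⟨S, hdiv, hmono⟩ | ⟨δ, G, hδ, hdiv⟩ |
      ⟨μ, c, δ, G, hc, hδ, hd, hdiv⟩ |
      ⟨δ, hδ, hdiv⟩
  · exact Vale.Agent.P028G.weak_inhom_DS_below γ θ hθ ψ hψ hdiv
  · exact Vale.Agent.P028L.weak_inhom_DS_levels γ K hK ψ hψ S hsep hdiv
  · refine Vale.Agent.P028L.weak_inhom_DS_levels γ 1 le_rfl ψ hψ S (fun q hq r hr hp hp' => ?_) hdiv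
    refine Or.inl ?_
    rw [one_mul]
    refine le_trans ?_ (le_add_of_nonneg_left zero_le_one)
    rcases Nat.eq_zero_or_pos q with hq0 | hq0
    · subst hq0
      have h := hmono 0 hq r hr (Nat.zero_le r) hp hp'
      have h1 := Real.log_le_log hp' h
      have h2 := Real.log_natCast_nonneg r
      simp only [Nat.cast_zero, Real.log_zero]
      rw [abs_of_nonneg (by linarith), abs_of_nonpos (by linarith)]
      linarith
    rcases Nat.eq_zero_or_pos r with hr0 | hr0
    · subst hr0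
      have h := hmono 0 hr q hq (Nat.zero_le q) hp' hp
      have h1 := Real.log_le_log hp h
      have h2 := Real.log_natCast_nonneg q
      simp only [Nat.cast_zero, Real.log_zero]
      rw [abs_of_nonpos (by linarith), abs_of_nonneg (by linarith)]
      linarith
    rcases le_total q r with h | h
    · have h1 := Real.log_le_log hp' (hmono q hq r hr h hp hp')
      have h2 := Real.log_le_log (by exact_mod_cast hq0 : (0 : ℝ) < q) (Nat.cast_le.2 h)
      rw [abs_of_nonneg (by linarith), abs_of_nonpos (by linarith)]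
      linarith
    · have h1 := Real.log_le_log hp (hmono r hr q hq h hp' hp)
      have h2 := Real.log_le_log (by exact_mod_cast hr0 : (0 : ℝ) < r) (Nat.cast_le.2 h)
      rw [abs_of_nonpos (by linarith), abs_of_nonneg (by linarith)]
      linarith
  · exact Vale.Agent.P028A.weak_inhom_DS_anchor γ δ hδ G ψ hψ hdiv
  · exact Vale.Agent.P028A.weak_inhom_DS_anchor_dioph γ (max μ 1) c δ (hdio μ c hc hd) hδ G ψ hψ hdiv
  · exact Vale.Agent.P028G.weak_inhom_DS_lll γ δ hδ ψ hψ hdiv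

end Vale.Agent.Results.P028.MixedLevels
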